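import Mathlib
import Vale.Agent.P047.Defs
import Vale.Agent.P047.Final

open Vale.Agent.P047

namespace Vale.Agent.Results.P047.Upper

/-- `M(d) ≤ (29/30) d` for all `d ≥ 2`, `M(d) ≤ (15/16) d` for all `d ≥ 4`, and
`limsup M(d)/d ≤ tanh 1 + 1/6 < 0.9283`. -/
theorem result :
    (∀ d : ℕ, 2 ≤ d → BddAbove (levelOneSums d) ∧ M d ≤ 29 / 30 * d) ∧
    (∀ d : ℕ, 4 ≤ d → M d ≤ 15 / 16 * d) ∧
    (∀ ε : ℝ, 0 < ε → ∃ d₀ : ℕ, ∀ d : ℕ, d₀ ≤ d → M d ≤ (Real.tanh 1 + 1 / 6 + ε) * d) :=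
  final

end Vale.Agent.Results.P047.Upper
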